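import Vale.Agent.P203.UnfSys
import Vale.Agent.P203.MorseP
import Vale.Agent.P203.Fiber
import Vale.Agent.P203.Cyl
import Vale.Agent.P203.Cover
import Vale.Agent.P203.TopPi

namespace Vale.Agent.Results.P203.KPi1

open Vale.Agent.P203

theorem result (S W : Type) [Finite S] [Group W] (M : CoxeterMatrix S) (cs : CoxeterSystem M W)
    (n : ℕ) (hn : 2 ≤ n) (x : Salvetti cs) :
    Subsingleton (HomotopyGroup.Pi n (Salvetti cs) x) := by
  classical
  have := Fintype.ofFinite S
  obtain ⟨G, _, ⟨Y⟩⟩ := exists_sys cs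
  obtain ⟨p, hp, hs⟩ := exists_cover Y.toArt
  exact pi_subsingleton
    (Y.toArt.contr_SS Y.contr_PP fun T g hT => Y.toArt.contr_fiber Y.lcm hT g)
    (fun v hv => Y.toArt.finite_nbhd hv) hp hs hn x

end Vale.Agent.Results.P203.KPi1
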